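import Vale.Agent.P275.H490.Defs

/-!
# Row FIN (helper74)
-/

namespace Vale.Agent.P275.H74

open scoped BigOperators Topology
open Filter Vale.Agent.P275.H490

/-- the polynomial in `1 / sqrt p` -/
noncomputable def PP (D R : ℕ) (h : ℕ → ℕ → ℕ) : Polynomial ℂ :=
  ∑ k ∈ Finset.range (2 * R + 1), ∑ w ∈ Finset.range (2 * k + 1),
    Polynomial.C ((-1) ^ k * (h k w : ℂ)) * Polynomial.X ^ (w - (2 * D + 1))

theorem PP_coeff_zero {D R : ℕ} {h : ℕ → ℕ → ℕ} (hDR : D + 1 ≤ R)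
    (h1 : ∀ k w, h k w ≠ 0 → k ≤ w ∧ w ≤ 2 * k) (h2 : ∀ k w, k ≤ 2 * D → h k w = 0) :
    (PP D R h).coeff 0 = -(h (2 * D + 1) (2 * D + 1) : ℂ) := by
  simp only [PP, Polynomial.finsetSum_coeff, Polynomial.coeff_C_mul, Polynomial.coeff_X_pow]
  rw [Finset.sum_eq_single (2 * D + 1)]
  · rw [Finset.sum_eq_single (2 * D + 1)]
    · simp [pow_succ, pow_mul]
    · intro w _ hw
      by_cases h0 : h (2 * D + 1) w = 0
      · simp [h0]
      · have := (h1 _ _ h0).1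
        rw [if_neg (by omega)]
        simp
    · intro hn
      exact absurd (Finset.mem_range.mpr (by omega)) hn
  · intro k _ hk
    apply Finset.sum_eq_zero
    intro w _
    by_cases h0 : h k w = 0
    · simp [h0]
    · have h3 := (h1 _ _ h0).1
      have h4 : ¬ k ≤ 2 * D := fun hc => h0 (h2 _ _ hc)
      rw [if_neg (by omega)]
      simp
  · intro hn
    exact absurd (Finset.mem_range.mpr (by omega)) hn

theorem PP_coeff_one {D R : ℕ} {h : ℕ → ℕ → ℕ} (hDR : D + 1 ≤ R)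
    (h1 : ∀ k w, h k w ≠ 0 → k ≤ w ∧ w ≤ 2 * k) (h2 : ∀ k w, k ≤ 2 * D → h k w = 0) :
    (PP D R h).coeff 1 = (h (2 * D + 2) (2 * D + 2) : ℂ) - h (2 * D + 1) (2 * D + 2) := by
  simp only [PP, Polynomial.finsetSum_coeff, Polynomial.coeff_C_mul, Polynomial.coeff_X_pow]
  have hin : ∀ k ∈ Finset.range (2 * R + 1), ∑ w ∈ Finset.range (2 * k + 1),
      (-1 : ℂ) ^ k * (h k w : ℂ) * (if 1 = w - (2 * D + 1) then 1 else 0) =
      (-1 : ℂ) ^ k * (h k (2 * D + 2) : ℂ) := by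
    intro k _
    by_cases hk : 2 * D + 2 ∈ Finset.range (2 * k + 1)
    · rw [Finset.sum_eq_single (2 * D + 2)]
      · rw [if_pos (by omega), mul_one]
      · intro w _ hw
        rw [if_neg (by omega), mul_zero]
      · intro hn
        exact absurd hk hn
    · have h0 : h k (2 * D + 2) = 0 := by
        by_contra hc
        have := (h1 _ _ hc).2
        rw [Finset.mem_range] at hk
        omega
      rw [h0, Nat.cast_zero, mul_zero]
      apply Finset.sum_eq_zero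
      intro w hw
      rw [Finset.mem_range] at hw hk
      rw [if_neg (by omega), mul_zero]
  rw [Finset.sum_congr rfl hin]
  have hsub : ({2 * D + 1, 2 * D + 2} : Finset ℕ) ⊆ Finset.range (2 * R + 1) := by
    intro x hx
    simp only [Finset.mem_insert, Finset.mem_singleton] at hx
    rw [Finset.mem_range]
    omega
  rw [← Finset.sum_subset hsub, Finset.sum_pair (by omega)]
  · have e1 : (-1 : ℂ) ^ (2 * D + 1) = -1 := by simp [pow_succ, pow_mul]
    have e2 : (-1 : ℂ) ^ (2 * D + 2) = 1 := by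
      rw [show 2 * D + 2 = 2 * (D + 1) from by ring, pow_mul]; simp
    rw [e1, e2]
    ring
  · intro k _ hk
    simp only [Finset.mem_insert, Finset.mem_singleton, not_or] at hk
    have h0 : h k (2 * D + 2) = 0 := by
      by_contra hc
      have h3 := (h1 _ _ hc).1
      have h4 : ¬ k ≤ 2 * D := fun hc' => hc (h2 _ _ hc')
      omega
    rw [h0, Nat.cast_zero, mul_zero]

theorem key {D R g N : ℕ} {h : ℕ → ℕ → ℕ} (hg : 2 ≤ g) (hDR : D + 1 ≤ R)
    (hN : N + D + 2 = 2 * R + 2 * g)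
    (h1 : ∀ k w, h k w ≠ 0 → k ≤ w ∧ w ≤ 2 * k) (h2 : ∀ k w, k ≤ 2 * D → h k w = 0)
    {p s : ℂ} (hs : s ^ 2 = p) (hp : p ≠ 0) :
    ((p - 1) ^ (2 * g - 2) *
        ∑ k ∈ Finset.range (2 * R + 1), ∑ w ∈ Finset.range (2 * k + 1), (-1) ^ k * (h k w : ℂ) *
            s ^ (4 * R - w)) / p ^ N * p =
      (1 - p⁻¹) ^ (2 * g - 2) * ((PP D R h).eval s⁻¹ / s⁻¹) := by
  have hs0 : s ≠ 0 := by
    intro h0
    rw [h0] at hs
    exact hp (by rw [← hs]; simp)
  have e1 : ∑ k ∈ Finset.range (2 * R + 1), ∑ w ∈ Finset.range (2 * k + 1),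
      (-1) ^ k * (h k w : ℂ) * s ^ (4 * R - w) = s ^ (4 * R - (2 * D + 1)) *
        (PP D R h).eval s⁻¹ := by
    simp only [PP, Polynomial.eval_finsetSum, Polynomial.eval_mul, Polynomial.eval_C,
      Polynomial.eval_pow, Polynomial.eval_X, Finset.mul_sum]
    refine Finset.sum_congr rfl fun k hk => Finset.sum_congr rfl fun w hw => ?_
    rw [Finset.mem_range] at hk hw
    by_cases h0 : h k w = 0
    · simp [h0]
    · have h3 := (h1 _ _ h0).1
      have h4 : ¬ k ≤ 2 * D := fun hc => h0 (h2 _ _ hc)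
      have h5 : 4 * R - (2 * D + 1) = (4 * R - w) + (w - (2 * D + 1)) := by omega
      rw [h5, pow_add, inv_pow]
      field_simp
  rw [e1]
  have e2 : (p - 1) ^ (2 * g - 2) = p ^ (2 * g - 2) * (1 - p⁻¹) ^ (2 * g - 2) := by
    rw [← mul_pow]
    congr 1
    field_simp
  have e3 : p ^ (2 * g - 2) * s ^ (4 * R - (2 * D + 1)) * p = p ^ N * s := by
    rw [← hs, ← pow_mul, ← pow_mul, ← pow_add, ← pow_add, ← pow_succ]
    congr 1
    omega
  have hpN : p ^ N ≠ 0 := pow_ne_zero _ hp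
  rw [e2, div_mul_eq_mul_div, div_eq_iff hpN, div_inv_eq_mul]
  calc p ^ (2 * g - 2) * (1 - p⁻¹) ^ (2 * g - 2) * (s ^ (4 * R - (2 * D + 1)) *
        (PP D R h).eval s⁻¹) * p =
      (p ^ (2 * g - 2) * s ^ (4 * R - (2 * D + 1)) * p) * ((1 - p⁻¹) ^ (2 * g - 2) *
        (PP D R h).eval s⁻¹) := by ring
    _ = (1 - p⁻¹) ^ (2 * g - 2) * ((PP D R h).eval s⁻¹ * s) * p ^ N := by rw [e3]; ring

theorem rowFIN : RowFIN := by
  intro D R g M N hg hM hDR hN h h1 h2 h3 E hE h4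
  have hfr : ∃ᶠ p in atTop, Nat.Prime p ∧ p ≡ 1 [MOD M] :=
    Nat.frequently_atTop_modEq_one (by omega)
  obtain ⟨S, hS⟩ : ∃ S : Set ℕ, S = {p | Nat.Prime p ∧ p ≡ 1 [MOD M]} := ⟨_, rfl⟩
  have hne : NeBot (atTop ⊓ 𝓟 S) := by
    rw [hS]
    exact frequently_iff_neBot.mp hfr
  obtain ⟨l, hl⟩ : ∃ l : Filter ℕ, l = atTop ⊓ 𝓟 S := ⟨_, rfl⟩
  rw [← hl] at hne
  have hle : l ≤ atTop := by rw [hl]; exact inf_le_left
  have hSl : ∀ᶠ p in l, p ∈ S := by
    rw [hl]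
    exact mem_inf_of_right (mem_principal_self S)
  -- the inverse of the root
  have hinv : Tendsto (fun p : ℕ => ((p : ℂ))⁻¹) l (𝓝 0) :=
    (tendsto_inv_atTop_nhds_zero_nat (𝕜 := ℂ)).mono_left hle
  have hy0 : Tendsto (fun p : ℕ => (((Real.sqrt p : ℝ) : ℂ))⁻¹) l (𝓝 0) := by
    have e1 : Tendsto (fun p : ℕ => (Real.sqrt p)⁻¹) atTop (𝓝 0) :=
      tendsto_inv_atTop_zero.comp
        (Real.tendsto_sqrt_atTop.comp tendsto_natCast_atTop_atTop)
    have e2 : Tendsto (fun p : ℕ => (((Real.sqrt p)⁻¹ : ℝ) : ℂ)) atTop (𝓝 ((0 : ℝ) : ℂ)) :=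
      (Complex.continuous_ofReal.tendsto 0).comp e1
    have e3 := e2.mono_left hle
    simpa using e3
  have hc : Tendsto (fun p : ℕ => (1 - (p : ℂ)⁻¹) ^ (2 * g - 2)) l (𝓝 1) := by
    have e1 : Tendsto (fun p : ℕ => (1 - (p : ℂ)⁻¹) ^ (2 * g - 2)) l
        (𝓝 ((1 - 0) ^ (2 * g - 2))) := (tendsto_const_nhds.sub hinv).pow _
    simpa using e1
  have hE' : Tendsto (fun q : ℕ => (E q / (q : ℂ) ^ N - 0) * q) l (𝓝 (-(2 * g - 2))) :=
    hE.mono_left hle
  have hpos : ∀ᶠ p : ℕ in l, (p : ℂ) ≠ 0 ∧ (1 - (p : ℂ)⁻¹) ^ (2 * g - 2) ≠ 0 := by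
    filter_upwards [hSl] with p hp
    rw [hS] at hp
    have hp0 : (p : ℂ) ≠ 0 := by exact_mod_cast hp.1.ne_zero
    refine ⟨hp0, pow_ne_zero _ ?_⟩
    intro hcon
    have e1 : (p : ℂ)⁻¹ = 1 := by linear_combination -hcon
    have e2 : (p : ℂ) = 1 := by
      rw [← inv_inv (p : ℂ), e1, inv_one]
    have e3 : p = 1 := by exact_mod_cast e2
    exact hp.1.one_lt.ne' e3
  have hlim : Tendsto (fun p : ℕ => (PP D R h).eval (((Real.sqrt p : ℝ) : ℂ))⁻¹ /
      (((Real.sqrt p : ℝ) : ℂ))⁻¹) l (𝓝 (-(2 * g - 2))) := by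
    have e1 : Tendsto (fun p : ℕ => ((E p / (p : ℂ) ^ N - 0) * p) /
        (1 - (p : ℂ)⁻¹) ^ (2 * g - 2)) l (𝓝 (-(2 * g - 2) / 1)) := hE'.div hc one_ne_zero
    rw [div_one] at e1
    refine e1.congr' ?_
    filter_upwards [hSl, hpos] with p hp hp0
    rw [hS] at hp
    rw [div_eq_iff hp0.2, sub_zero, ← h4 p hp.1 hp.2,
      key hg hDR hN h1 h2 (s := ((Real.sqrt p : ℝ) : ℂ)) _ hp0.1]
    · ring
    · rw [← Complex.ofReal_pow, Real.sq_sqrt (Nat.cast_nonneg p)]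
      simp
  have hyne : ∀ᶠ p : ℕ in l, (((Real.sqrt p : ℝ) : ℂ))⁻¹ ≠ 0 := by
    filter_upwards [hpos] with p hp
    apply inv_ne_zero
    intro hcon
    have e1 : Real.sqrt p = 0 := by exact_mod_cast hcon
    rw [Real.sqrt_eq_zero (Nat.cast_nonneg p)] at e1
    exact hp.1 (by exact_mod_cast e1)
  have hP0 : (PP D R h).eval 0 = 0 := by
    have e1 : Tendsto (fun p : ℕ => (PP D R h).eval (((Real.sqrt p : ℝ) : ℂ))⁻¹) l
        (𝓝 ((PP D R h).eval 0)) := ((PP D R h).continuous.tendsto 0).comp hy0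
    have e2 : Tendsto (fun p : ℕ => (PP D R h).eval (((Real.sqrt p : ℝ) : ℂ))⁻¹) l
        (𝓝 (-(2 * g - 2) * 0)) := by
      refine (hlim.mul hy0).congr' ?_
      filter_upwards [hyne] with p hp
      rw [div_mul_cancel₀ _ hp]
    rw [mul_zero] at e2
    exact tendsto_nhds_unique e1 e2
  have hP1 : (PP D R h).derivative.eval 0 = -(2 * g - 2) := by
    have e1 : Tendsto (fun p : ℕ => slope (fun x => (PP D R h).eval x) 0
        (((Real.sqrt p : ℝ) : ℂ))⁻¹) l (𝓝 ((PP D R h).derivative.eval 0)) :=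
      ((PP D R h).hasDerivAt 0).tendsto_slope.comp
        (tendsto_nhdsWithin_iff.mpr ⟨hy0, hyne⟩)
    refine tendsto_nhds_unique e1 (hlim.congr ?_)
    intro p
    rw [slope_def_field, hP0, sub_zero, sub_zero]
  rw [← Polynomial.coeff_zero_eq_eval_zero] at hP0 hP1
  rw [PP_coeff_zero hDR h1 h2] at hP0
  rw [Polynomial.coeff_derivative, zero_add, PP_coeff_one hDR h1 h2] at hP1
  have a0 : h (2 * D + 1) (2 * D + 1) = 0 := by
    have : (h (2 * D + 1) (2 * D + 1) : ℂ) = 0 := by linear_combination -hP0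
    exact_mod_cast this
  have a1 : h (2 * D + 2) (2 * D + 2) + 2 * g = h (2 * D + 1) (2 * D + 2) + 2 := by
    have : (h (2 * D + 2) (2 * D + 2) : ℂ) + 2 * g = h (2 * D + 1) (2 * D + 2) + 2 := by
      push_cast at hP1
      linear_combination hP1
    exact_mod_cast this
  have a2 : h (2 * D + 1) (2 * D + 2) ≤ 2 * g - 2 := by
    rw [← h3]
    exact Finset.single_le_sum (f := fun w => h (2 * D + 1) w) (fun _ _ => Nat.zero_le _)
      (Finset.mem_range.mpr (by omega))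
  have a3 : h (2 * D + 2) (2 * D + 2) = 0 := by omega
  have a4 : h (2 * D + 1) (2 * D + 2) = 2 * g - 2 := by omega
  refine ⟨?_, a3⟩
  intro w
  by_cases hw : w = 2 * (D + 1)
  · rw [if_pos hw, hw]
    exact a4
  · rw [if_neg hw]
    by_contra hcon
    have b1 := (h1 _ _ hcon).2
    have b2 : ({w, 2 * D + 2} : Finset ℕ) ⊆ Finset.range (2 * (2 * D + 1) + 1) := by
      intro x hx
      simp only [Finset.mem_insert, Finset.mem_singleton] at hx
      rw [Finset.mem_range]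
      omega
    have b3 : ∑ x ∈ ({w, 2 * D + 2} : Finset ℕ), h (2 * D + 1) x ≤
        ∑ x ∈ Finset.range (2 * (2 * D + 1) + 1), h (2 * D + 1) x :=
      Finset.sum_le_sum_of_subset b2
    rw [Finset.sum_pair (by omega), h3] at b3
    omega

end Vale.Agent.P275.H74
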